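import Vale.Agent.P344.Defs

namespace Vale.Agent.P344

/-- Coefficient vector of the linear form held at position `i` after the circuit `P` was run on
`n` inputs. The norm on `Fin n → ℂ` is the largest modulus of a coefficient. -/
noncomputable def form (n : ℕ) (P : List Gate) (i : ℕ) : Fin n → ℂ :=
  fun k => (run P (List.ofFn (Pi.single k (1 : ℂ)))).getD i 0

/-- Cancellation at gate `t`, an addition or subtraction: the sum of the norms of the two linear
forms it reads, divided by the norm of the linear form it computes, for the norm `N`. -/
noncomputable def cancellation {n : ℕ} (N : (Fin n → ℂ) → ℝ) (P : List Gate) (t : ℕ) : ℝ :=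
  match P[t]? with
  | some (Gate.add i j) =>
    (N (form n (P.take t) i) + N (form n (P.take t) j)) / N (form n (P.take (t + 1)) (n + t))
  | some (Gate.sub i j) =>
    (N (form n (P.take t) i) + N (form n (P.take t) j)) / N (form n (P.take (t + 1)) (n + t))
  | _ => 0

/-- The numbers of the gates that are additions or subtractions. -/
noncomputable def additions (P : List Gate) : Finset ℕ := by
  classical
  exact (Finset.range P.length).filter
    (fun t => ∃ i j, P[t]? = some (Gate.add i j) ∨ P[t]? = some (Gate.sub i j))

/-- Euclidean norm of a vector. -/
noncomputable def nrm {n : ℕ} (v : Fin n → ℂ) : ℝ :=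
  √(∑ k, ‖v k‖ ^ 2)

/-- Amplification at gate `t`, when the outputs are at the positions `out`: Euclidean norm of the
linear form it computes, times the norm of the change of the output vector when the value of gate
`t` grows by 1 (its value at input 0, started with 0 before gate `t` and 1 at gate `t`), divided by
the norm `√n` of `F_n`. -/
noncomputable def amp (n : ℕ) (P : List Gate) (out : Fin n → ℕ) (t : ℕ) : ℝ :=
  nrm (form n (P.take (t + 1)) (n + t)) *
    nrm (fun k => (run (P.drop (t + 1)) (List.replicate (n + t) 0 ++ [1])).getD (out k) 0) / √n

end Vale.Agent.P344
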